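import Vale.Agent.P255.H370.Main

open scoped Manifold ContDiff

namespace Vale.Agent.Results.P255.GroupObstruction

open Vale.Agent.P255 Vale.Agent.P255.H370

/-- In every dimension `n ≥ 3` there is a closed connected smooth manifold `M` which carries a
metric without conjugate points, such that no closed manifold, of any dimension, whose fundamental
group contains the fundamental group of `M` carries a metric of nonpositive curvature, and whose
products with all closed manifolds with metrics without conjugate points have the same two
properties. -/
theorem result : ∀ n : ℕ, 3 ≤ n →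
    ∃ (E : Type) (_ : NormedAddCommGroup E) (_ : NormedSpace ℝ E)
      (M : Type) (_ : TopologicalSpace M) (_ : ChartedSpace E M) (_ : IsManifold 𝓘(ℝ, E) ∞ M)
      (m : M),
      Module.finrank ℝ E = n ∧
      CompactSpace M ∧ T2Space M ∧ SecondCountableTopology M ∧ ConnectedSpace M ∧
      AdmitsNoConj E M ∧ ¬ AdmitsNonpos E M ∧
      (∀ (F : Type) [NormedAddCommGroup F] [NormedSpace ℝ F] [FiniteDimensional ℝ F]
        (N : Type) [TopologicalSpace N] [ChartedSpace F N] [IsManifold 𝓘(ℝ, F) ∞ N]
        [CompactSpace N] [T2Space N] (p : N)
        (φ : FundamentalGroup M m →* FundamentalGroup N p), Function.Injective φ →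
        ¬ AdmitsNonpos F N) ∧
      (∀ (F : Type) [NormedAddCommGroup F] [NormedSpace ℝ F] [FiniteDimensional ℝ F]
        (N : Type) [TopologicalSpace N] [ChartedSpace F N] [IsManifold 𝓘(ℝ, F) ∞ N]
        [CompactSpace N] [T2Space N] [Nonempty N], AdmitsNoConj F N →
        ProdAdmitsNoConj E M F N ∧ ¬ ProdAdmitsNonpos E M F N) :=
  main

end Vale.Agent.Results.P255.GroupObstruction
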