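import Vale.Agent.P255.H635.Main

open scoped Manifold ContDiff

namespace Vale.Agent.Results.P255.NotVirtuallyCAT0

open Vale.Agent.P255 Vale.Agent.P255.H370 Vale.Agent.P255.H635

/-- In every dimension `n ≥ 3` there is a closed connected smooth manifold `M` which carries a
metric without conjugate points and no metric of nonpositive curvature; moreover no closed covering
manifold of `M` carries such a metric, and the fundamental group of `M` is not virtually `CAT(0)`,
not even a virtual subgroup of a `CAT(0)` group. The same holds for the products of `M` with all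
closed manifolds with metrics without conjugate points. -/
theorem result : ∀ n : ℕ, 3 ≤ n →
    ∃ (E : Type) (_ : NormedAddCommGroup E) (_ : NormedSpace ℝ E)
      (M : Type) (_ : TopologicalSpace M) (_ : ChartedSpace E M) (_ : IsManifold 𝓘(ℝ, E) ∞ M),
      Module.finrank ℝ E = n ∧
      CompactSpace M ∧ T2Space M ∧ SecondCountableTopology M ∧ ConnectedSpace M ∧
      AdmitsNoConj E M ∧ ¬ AdmitsNonpos E M ∧ ¬ HasNonposCover M ∧
      (∀ m : M, NotVirtuallyCAT0 (FundamentalGroup M m)) ∧
      ∀ (F : Type) [NormedAddCommGroup F] [NormedSpace ℝ F] [FiniteDimensional ℝ F]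
        (N : Type) [TopologicalSpace N] [ChartedSpace F N] [IsManifold 𝓘(ℝ, F) ∞ N]
        [CompactSpace N] [T2Space N] [Nonempty N], AdmitsNoConj F N →
        ProdAdmitsNoConj E M F N ∧ ¬ HasNonposCover (M × N) ∧
        ∀ q : M × N, NotVirtuallyCAT0 (FundamentalGroup (M × N) q) :=
  main

end Vale.Agent.Results.P255.NotVirtuallyCAT0
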